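import Vale.Agent.P107.H706.Weak3

/-!
Transfer of the weak formulation of the relativistic Vlasov-Maxwell system from coordinates to the
Euclidean space.
-/

open MeasureTheory Set Filter Topology
open scoped RealInnerProductSpace ENNReal

namespace Vale.Agent.P107.H429

open RVM (V3)

/-- The map `(x, v) ↦ (coo x, coo v)`. -/
noncomputable def c2 : (E3 × E3) ≃L[ℝ] (V3 × V3) := coo.prodCongr coo

/-- The map `(t, x, v) ↦ (t, coo x, coo v)`. -/
noncomputable def c3 : (ℝ × E3 × E3) ≃L[ℝ] (ℝ × V3 × V3) :=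
  (ContinuousLinearEquiv.refl ℝ ℝ).prodCongr (coo.prodCongr coo)

/-- The map `(t, x) ↦ (t, coo x)`. -/
noncomputable def d2 : (ℝ × E3) ≃L[ℝ] (ℝ × V3) :=
  (ContinuousLinearEquiv.refl ℝ ℝ).prodCongr coo

lemma c2_apply (z : E3 × E3) : c2 z = (coo z.1, coo z.2) := rfl
lemma c3_apply (p : ℝ × E3 × E3) : c3 p = (p.1, coo p.2.1, coo p.2.2) := rfl
lemma d2_apply (p : ℝ × E3) : d2 p = (p.1, coo p.2) := rfl
lemma c3_symm_apply (p : ℝ × V3 × V3) : c3.symm p = (p.1, coo.symm p.2.1, coo.symm p.2.2) := rfl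
lemma d2_symm_apply (p : ℝ × V3) : d2.symm p = (p.1, coo.symm p.2) := rfl

lemma mp_c2 : MeasurePreserving (c2 : E3 × E3 → V3 × V3) := mp_coo.prod mp_coo

lemma mp_c3 : MeasurePreserving (c3 : ℝ × E3 × E3 → ℝ × V3 × V3) :=
  (MeasurePreserving.id volume).prod (mp_coo.prod mp_coo)

lemma mp_d2 : MeasurePreserving (d2 : ℝ × E3 → ℝ × V3) :=
  (MeasurePreserving.id volume).prod mp_coo

lemma me_c2 : MeasurableEmbedding (c2 : E3 × E3 → V3 × V3) :=
  c2.toHomeomorph.measurableEmbedding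

lemma me_c3 : MeasurableEmbedding (c3 : ℝ × E3 × E3 → ℝ × V3 × V3) :=
  c3.toHomeomorph.measurableEmbedding

lemma me_d2 : MeasurableEmbedding (d2 : ℝ × E3 → ℝ × V3) :=
  d2.toHomeomorph.measurableEmbedding

lemma lint_c2 (F : V3 × V3 → ℝ≥0∞) : ∫⁻ z : E3 × E3, F (coo z.1, coo z.2) = ∫⁻ z, F z :=
  mp_c2.lintegral_comp_emb me_c2 F

lemma lint_coo (F : V3 → ℝ≥0∞) : ∫⁻ x : E3, F (coo x) = ∫⁻ x, F x :=
  mp_coo.lintegral_comp_emb me_coo F

lemma int_c2 (F : V3 × V3 → ℝ) : ∫ z : E3 × E3, F (coo z.1, coo z.2) = ∫ z, F z :=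
  mp_c2.integral_comp me_c2 F

lemma int_c3 (F : ℝ × V3 × V3 → ℝ) :
    ∫ p in Ioi (0 : ℝ) ×ˢ (univ : Set (E3 × E3)), F (p.1, coo p.2.1, coo p.2.2)
      = ∫ p in Ioi (0 : ℝ) ×ˢ (univ : Set (V3 × V3)), F p := by
  rw [← mp_c3.setIntegral_preimage_emb me_c3 F]
  have h : (c3 : ℝ × E3 × E3 → ℝ × V3 × V3) ⁻¹' (Ioi (0 : ℝ) ×ˢ (univ : Set (V3 × V3)))
      = Ioi (0 : ℝ) ×ˢ (univ : Set (E3 × E3)) := by
    ext p
    simp [c3_apply]
  rw [h]
  rfl

lemma int_d2 (F : ℝ × V3 → ℝ) :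
    ∫ p in Ioi (0 : ℝ) ×ˢ (univ : Set E3), F (p.1, coo p.2)
      = ∫ p in Ioi (0 : ℝ) ×ˢ (univ : Set V3), F p := by
  rw [← mp_d2.setIntegral_preimage_emb me_d2 F]
  have h : (d2 : ℝ × E3 → ℝ × V3) ⁻¹' (Ioi (0 : ℝ) ×ˢ (univ : Set V3))
      = Ioi (0 : ℝ) ×ˢ (univ : Set E3) := by
    ext p
    simp [d2_apply]
  rw [h]
  rfl

lemma norm_symm (a : V3) : ‖coo.symm a‖ = RVM.len a := by
  rw [← len_coo, coo.apply_symm_apply]

lemma inner_eq (a b : E3) : ⟪a, b⟫ = ∑ i, a i * b i := by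
  simp [PiLp.inner_apply, mul_comm]

lemma symm_apply (a : V3) (i : Fin 3) : coo.symm a i = a i := by
  rw [← coo_apply, coo.apply_symm_apply]

lemma symm_u (v : E3) : coo.symm (RVM.u (coo v)) = u v := by
  ext i
  rw [symm_apply, u_coo]

lemma symm_cross (v : E3) (b : V3) :
    coo.symm (RVM.cross (RVM.u (coo v)) b) = cross (u v) (coo.symm b) := by
  ext i
  rw [symm_apply, ← cross_coo, coo.apply_symm_apply]
  have h : coo (u v) = RVM.u (coo v) := by
    rw [← symm_u, coo.apply_symm_apply]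
  rw [h]

variable {f₀ : V3 → V3 → ℝ} {E₀ B₀ : V3 → V3} {g : ℝ → V3 → V3 → ℝ} {E B : ℝ → V3 → V3}

/-- the test function in coordinates -/
noncomputable def tf (φ : ℝ × E3 × E3 → ℝ) : ℝ × V3 × V3 → ℝ := φ ∘ c3.symm

/-- the test field in coordinates -/
noncomputable def tg (η : ℝ × E3 → E3) : ℝ × V3 → V3 := coo ∘ η ∘ d2.symm

lemma tf_apply (φ : ℝ × E3 × E3 → ℝ) (p : ℝ × E3 × E3) : tf φ (c3 p) = φ p := by
  simp [tf]

lemma tg_apply (η : ℝ × E3 → E3) (p : ℝ × E3) : tg η (d2 p) = coo (η p) := by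
  simp [tg]

lemma tf_contDiff {φ : ℝ × E3 × E3 → ℝ} (h : ContDiff ℝ 1 φ) : ContDiff ℝ 1 (tf φ) :=
  h.comp c3.symm.contDiff

lemma tg_contDiff {η : ℝ × E3 → E3} (h : ContDiff ℝ 1 η) : ContDiff ℝ 1 (tg η) :=
  coo.contDiff.comp (h.comp d2.symm.contDiff)

lemma tf_supp {φ : ℝ × E3 × E3 → ℝ} (h : HasCompactSupport φ) : HasCompactSupport (tf φ) :=
  h.comp_homeomorph c3.symm.toHomeomorph

lemma tg_supp {η : ℝ × E3 → E3} (h : HasCompactSupport η) : HasCompactSupport (tg η) := by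
  have h1 : HasCompactSupport (η ∘ d2.symm) := h.comp_homeomorph d2.symm.toHomeomorph
  exact h1.comp_left (g := coo) (map_zero coo)

lemma tf_fderiv (φ : ℝ × E3 × E3 → ℝ) (p : ℝ × E3 × E3) (w : ℝ × V3 × V3) :
    fderiv ℝ (tf φ) (c3 p) w = fderiv ℝ φ p (c3.symm w) := by
  unfold tf
  rw [c3.symm.comp_right_fderiv]
  simp

lemma tg_fderiv (η : ℝ × E3 → E3) (p : ℝ × E3) (w : ℝ × V3) :
    fderiv ℝ (tg η) (d2 p) w = coo (fderiv ℝ η p (d2.symm w)) := by
  unfold tg
  rw [coo.comp_fderiv, d2.symm.comp_right_fderiv]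
  simp

lemma tg_curl (η : ℝ × E3 → E3) (p : ℝ × E3) (i : Fin 3) :
    RVM.curl (fun y => tg η (p.1, y)) (coo p.2) i = curl (fun y => η (p.1, y)) p.2 i := by
  have h := curl_FF (fun t y => tg η (t, y)) p.1 p.2 i
  rw [← h]
  have h2 : FF (fun t y => tg η (t, y)) p.1 = fun y => η (p.1, y) := by
    funext y
    have h3 : tg η (p.1, coo y) = coo (η (p.1, y)) := tg_apply η (p.1, y)
    change coo.symm (tg η (p.1, coo y)) = η (p.1, y)
    rw [h3, coo.symm_apply_apply]
  rw [h2]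

theorem weak3_of_weak (h : RVM.IsWeakSolution f₀ E₀ B₀ g E B) :
    H706.Weak3 (fun z => f₀ (coo z.1) (coo z.2)) (fun x => coo.symm (E₀ (coo x)))
      (fun x => coo.symm (B₀ (coo x))) (fun p => g p.1 (coo p.2.1) (coo p.2.2))
      (fun p => coo.symm (E p.1 (coo p.2))) (fun p => coo.symm (B p.1 (coo p.2))) where
  g_meas := h.g_meas.comp mp_c3.measurable
  E_meas := coo.symm.continuous.measurable.comp (h.E_meas.comp mp_d2.measurable)
  B_meas := coo.symm.continuous.measurable.comp (h.B_meas.comp mp_d2.measurable)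
  g_nonneg := fun p => h.g_nonneg _ _ _
  l2_le := by
    filter_upwards [h.l2_le] with t ht h0
    have h1 := lint_c2 (fun z => ENNReal.ofReal (g t z.1 z.2 ^ 2))
    have h2 := lint_c2 (fun z => ENNReal.ofReal (f₀ z.1 z.2 ^ 2))
    exact (h1.trans_le (ht h0)).trans_eq h2.symm
  energy_le := by
    filter_upwards [h.energy_le] with t ht h0
    have h1 := lint_c2 (fun z => ENNReal.ofReal (RVM.q z.2 * g t z.1 z.2))
    have h2 := lint_c2 (fun z => ENNReal.ofReal (RVM.q z.2 * f₀ z.1 z.2))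
    have h3 := lint_coo (fun x => ENNReal.ofReal (RVM.len (E t x) ^ 2 + RVM.len (B t x) ^ 2))
    have h4 := lint_coo (fun x => ENNReal.ofReal (RVM.len (E₀ x) ^ 2 + RVM.len (B₀ x) ^ 2))
    simp only [q_coo] at h1 h2
    simp only [norm_symm]
    rw [h1, h2, h3, h4]
    exact ht h0
  vlasov := by
    intro φ hφ hs
    have h1 := h.vlasov (tf φ) (tf_contDiff hφ) (tf_supp hs)
    rw [← int_c3, ← int_c2] at h1
    refine Eq.trans ?_ h1
    refine congrArg₂ (· + ·) ?_ ?_
    · refine setIntegral_congr_fun (measurableSet_Ioi.prod MeasurableSet.univ) fun p _ => ?_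
      have h2 := tf_fderiv φ p (1, RVM.u (coo p.2.2),
        E p.1 (coo p.2.1) + RVM.cross (RVM.u (coo p.2.2)) (B p.1 (coo p.2.1)))
      rw [c3_apply, c3_symm_apply] at h2
      simp only [map_add, symm_u, symm_cross] at h2
      simp only [h2]
    · refine integral_congr_ae (ae_of_all _ fun z => ?_)
      have h2 := tf_apply φ (0, z)
      rw [c3_apply] at h2
      simp only [h2]
  ampere := by
    intro η hη hs
    have h1 := h.ampere (tg η) (tg_contDiff hη) (tg_supp hs)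
    rw [← int_c3, ← int_d2, ← integral_coo] at h1
    refine Eq.trans ?_ h1
    congr 1
    · congr 1
      · refine setIntegral_congr_fun (measurableSet_Ioi.prod MeasurableSet.univ) fun p _ => ?_
        have h2 := tg_fderiv η p (1, 0)
        rw [d2_apply, d2_symm_apply] at h2
        simp only [map_zero] at h2
        simp only [inner_eq, symm_apply, h2, tg_curl, coo_apply, Finset.sum_add_distrib]
      · refine setIntegral_congr_fun (measurableSet_Ioi.prod MeasurableSet.univ) fun p _ => ?_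
        have h2 := tg_apply η (p.1, p.2.1)
        rw [d2_apply] at h2
        simp only [inner_eq, u_coo, h2, coo_apply]
    · refine integral_congr_ae (ae_of_all _ fun x => ?_)
      have h2 := tg_apply η (0, x)
      rw [d2_apply] at h2
      simp only [inner_eq, symm_apply, h2, coo_apply]
  faraday := by
    intro η hη hs
    have h1 := h.faraday (tg η) (tg_contDiff hη) (tg_supp hs)
    rw [← int_d2, ← integral_coo] at h1
    refine Eq.trans ?_ h1
    congr 1
    · refine setIntegral_congr_fun (measurableSet_Ioi.prod MeasurableSet.univ) fun p _ => ?_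
      have h2 := tg_fderiv η p (1, 0)
      rw [d2_apply, d2_symm_apply] at h2
      simp only [map_zero] at h2
      simp only [inner_eq, symm_apply, h2, tg_curl, coo_apply, Finset.sum_sub_distrib]
    · refine integral_congr_ae (ae_of_all _ fun x => ?_)
      have h2 := tg_apply η (0, x)
      rw [d2_apply] at h2
      simp only [inner_eq, symm_apply, h2, coo_apply]

end Vale.Agent.P107.H429
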