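import Vale.Agent.P107.H706.Energy
import Vale.Agent.P107.H706.Casimir
import Vale.Agent.P107.H706.Symm
import Vale.Agent.P107.H429.WeakTransfer

/-!
A classical solution on the whole time axis is a finite-energy weak solution.
-/

attribute [-instance] ProperSMul.toContinuousSMul IsTopologicalTorsor.toContinuousSMul
  IdemSemiring.toCanonicallyOrderedAdd IdemSemiring.toMulLeftMono IdemSemiring.toMulRightMono
  AddQuantale.instAddLeftMono AddQuantale.instAddRightMono Quantale.instMulLeftMono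
  Quantale.instMulRightMono FiniteDimensional.rclike_to_real IsScalarTower.complexToReal
  FiniteDimensional.complexToReal

open MeasureTheory Set Filter Topology
open scoped RealInnerProductSpace ENNReal NNReal

namespace Vale.Agent.P107.H429.CW

open RVM (V3)
open H706

/-! ### The solution in the Euclidean space -/

/-- the density on space-time-momentum -/
noncomputable def fS (f : ℝ → V3 → V3 → ℝ) (p : ℝ × E3 × E3) : ℝ := f p.1 (coo p.2.1) (coo p.2.2)

/-- the field on space-time -/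
noncomputable def FS (F : ℝ → V3 → V3) (p : ℝ × E3) : E3 := coo.symm (F p.1 (coo p.2))

variable {f : ℝ → V3 → V3 → ℝ} {E B : ℝ → V3 → V3}

lemma fS_c1 (h : RVM.IsEternalSolution f E B) : ContDiff ℝ 1 (fS f) :=
  h.f_c1.comp c3.contDiff

lemma FS_c1 {F : ℝ → V3 → V3} (h : ContDiff ℝ 1 fun z : ℝ × V3 => F z.1 z.2) :
    ContDiff ℝ 1 (FS F) :=
  coo.symm.contDiff.comp (h.comp d2.contDiff)

lemma fS_slice (f : ℝ → V3 → V3 → ℝ) : (fun y : ℝ × E3 × E3 => ff f y.1 y.2.1 y.2.2) = fS f := rfl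

lemma FS_slice (F : ℝ → V3 → V3) : (fun y : ℝ × E3 => FF F y.1 y.2) = FS F := rfl

/-- The Vlasov equation on space-time-momentum. -/
lemma vlasov_fS (h : RVM.IsEternalSolution f E B) {T : ℝ} {p : ℝ × E3 × E3} (hp : p.1 ∈ Ioo 0 T) :
    fderiv ℝ (fS f) p (1, u p.2.2, FS E (p.1, p.2.1) + cross (u p.2.2) (FS B (p.1, p.2.1))) = 0 := by
  have hs := isClassicalSolution_ff (h.classical T)
  have h1 := hs.vlasov_fderiv hp p.2
  have hf : HasFDerivAt (fS f) (fderiv ℝ (fS f) p) (p.1, p.2) :=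
    ((fS_c1 h).differentiable (by norm_num) p).hasFDerivAt
  have h2 : HasFDerivAt (fun y : E3 × E3 => ff f p.1 y.1 y.2)
      ((fderiv ℝ (fS f) p).comp (ContinuousLinearMap.inr ℝ ℝ (E3 × E3))) p.2 :=
    HasFDerivAt.comp (f := fun y : E3 × E3 => (p.1, y)) p.2 hf (hasFDerivAt_prodMk_right p.1 p.2)
  rw [h2.fderiv] at h1
  simp only [ContinuousLinearMap.comp_apply, ContinuousLinearMap.inr_apply] at h1
  have h3 : fderiv ℝ (fun y : ℝ × E3 × E3 => ff f y.1 y.2.1 y.2.2) (p.1, p.2) = fderiv ℝ (fS f) p :=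
    rfl
  rw [h3] at h1
  have h4 : ((1 : ℝ), u p.2.2, FS E (p.1, p.2.1) + cross (u p.2.2) (FS B (p.1, p.2.1)))
      = ((1 : ℝ), (0 : E3 × E3)) + ((0 : ℝ),
        (u p.2.2, FF E p.1 p.2.1 + cross (u p.2.2) (FF B p.1 p.2.1))) := by
    rw [Prod.mk_add_mk, add_zero, zero_add]
    rfl
  rw [h4, map_add, h1]
  exact neg_add_cancel _

/-! ### Curls -/

/-- Partial derivatives of time slices. -/
lemma pd_slice {η : ℝ × E3 → E3} (hη : ContDiff ℝ 1 η) (p : ℝ × E3) (i j : Fin 3) :
    pd i (fun y => η (p.1, y) j) p.2 = fderiv ℝ η p (0, EuclideanSpace.single i 1) j := by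
  have a1 : HasFDerivAt (fun y : E3 => ((p.1, y) : ℝ × E3))
      ((0 : E3 →L[ℝ] ℝ).prod (ContinuousLinearMap.id ℝ E3)) p.2 :=
    (hasFDerivAt_const p.1 p.2).prodMk (hasFDerivAt_id p.2)
  have a2 : HasFDerivAt η (fderiv ℝ η p) (p.1, p.2) :=
    (hη.differentiable (by norm_num)).differentiableAt.hasFDerivAt
  have a3 := a2.comp p.2 a1
  have a4 : HasFDerivAt (fun y => η (p.1, y) j) _ p.2 :=
    ((EuclideanSpace.proj j : E3 →L[ℝ] ℝ).hasFDerivAt).comp p.2 a3
  unfold pd
  rw [a4.fderiv]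
  simp

lemma continuous_curl_slice {η : ℝ × E3 → E3} (hη : ContDiff ℝ 1 η) :
    Continuous fun p : ℝ × E3 => curl (fun y => η (p.1, y)) p.2 := by
  have h : ∀ i j, Continuous fun p : ℝ × E3 => pd i (fun y => η (p.1, y) j) p.2 := by
    intro i j
    simp_rw [pd_slice hη]
    exact (EuclideanSpace.proj j : E3 →L[ℝ] ℝ).continuous.comp
      ((hη.continuous_fderiv (by norm_num)).clm_apply continuous_const)
  refine (PiLp.continuous_toLp 2 _).comp (continuous_pi fun i => ?_)
  fin_cases i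
  · exact (h 1 2).sub (h 2 1)
  · exact (h 2 0).sub (h 0 2)
  · exact (h 0 1).sub (h 1 0)

lemma hasCompactSupport_curl_slice {η : ℝ × E3 → E3} (hη : ContDiff ℝ 1 η)
    (hc : HasCompactSupport η) :
    HasCompactSupport fun p : ℝ × E3 => curl (fun y => η (p.1, y)) p.2 := by
  refine HasCompactSupport.intro (hc.fderiv (𝕜 := ℝ)) fun p hp => ?_
  have h0 := image_eq_zero_of_notMem_tsupport hp
  have h1 : ∀ i j, pd i (fun y => η (p.1, y) j) p.2 = 0 := by
    intro i j
    rw [pd_slice hη, h0]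
    simp
  unfold curl
  simp only [h1, sub_self]
  ext i
  fin_cases i <;> simp

/-! ### Integrals over `t > 0` -/

section Gen

variable {X : Type*} [NormedAddCommGroup X] [NormedSpace ℝ X] [MeasurableSpace X] [BorelSpace X]
  [SecondCountableTopology X] {μ : Measure X} [SFinite μ] [IsFiniteMeasureOnCompacts μ]

lemma slab_eq (G : ℝ × X → ℝ) :
    ∫ p in Ioi (0 : ℝ) ×ˢ (univ : Set X), G p ∂((volume : Measure ℝ).prod μ)
      = ∫ p, G p ∂((volume.restrict (Ioi (0 : ℝ))).prod μ) := by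
  rw [← Measure.prod_restrict, Measure.restrict_univ]

lemma slab_int {G : ℝ × X → ℝ} (hG : Continuous G) (hc : HasCompactSupport G) :
    Integrable G ((volume.restrict (Ioi (0 : ℝ))).prod μ) := by
  have h1 : Integrable G ((volume : Measure ℝ).prod μ) := hG.integrable_of_hasCompactSupport hc
  have h2 : (volume.restrict (Ioi (0 : ℝ))).prod μ
      = ((volume : Measure ℝ).prod μ).restrict (Ioi (0 : ℝ) ×ˢ (univ : Set X)) := by
    rw [← Measure.prod_restrict, Measure.restrict_univ]
  rw [h2]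
  exact h1.restrict

lemma hcs_slice {G : ℝ × X → ℝ} (hc : HasCompactSupport G) (x : X) :
    HasCompactSupport fun t : ℝ => G (t, x) := by
  refine HasCompactSupport.intro (hc.image continuous_fst) fun t ht => ?_
  by_contra hne
  exact ht ⟨(t, x), subset_tsupport _ hne, rfl⟩

lemma hcs_slice' {G : ℝ × X → ℝ} (hc : HasCompactSupport G) (t : ℝ) :
    HasCompactSupport fun x : X => G (t, x) := by
  refine HasCompactSupport.intro (hc.image continuous_snd) fun x hx => ?_
  by_contra hne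
  exact hx ⟨(t, x), subset_tsupport _ hne, rfl⟩

/-- The integral of a time derivative. -/
lemma slab_dt {G : ℝ × X → ℝ} (hG : ContDiff ℝ 1 G) (hc : HasCompactSupport G) :
    ∫ p, fderiv ℝ G p (1, 0) ∂((volume.restrict (Ioi (0 : ℝ))).prod μ) = - ∫ x, G (0, x) ∂μ := by
  have h1 : Continuous fun p : ℝ × X => fderiv ℝ G p (1, 0) :=
    (hG.continuous_fderiv (by norm_num)).clm_apply continuous_const
  have h2 : HasCompactSupport fun p : ℝ × X => fderiv ℝ G p (1, 0) := hc.fderiv_apply ℝ _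
  rw [integral_prod_symm _ (slab_int h1 h2), ← integral_neg]
  refine integral_congr_ae (ae_of_all _ fun x => ?_)
  have h3 : ContDiff ℝ 1 fun t : ℝ => G (t, x) :=
    hG.comp (contDiff_id.prodMk contDiff_const)
  have h4 := HasCompactSupport.integral_Ioi_deriv_eq h3 (hcs_slice hc x) 0
  have h5 : ∀ t : ℝ, deriv (fun t : ℝ => G (t, x)) t = fderiv ℝ G (t, x) (1, 0) := by
    intro t
    have a1 : HasDerivAt (fun t : ℝ => ((t, x) : ℝ × X)) (1, 0) t :=
      (hasDerivAt_id t).prodMk (hasDerivAt_const t x)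
    have a2 : HasFDerivAt G (fderiv ℝ G (t, x)) (t, x) :=
      (hG.differentiable (by norm_num)).differentiableAt.hasFDerivAt
    exact (a2.comp_hasDerivAt t a1).deriv
  simp only [h5] at h4
  exact h4

end Gen

/-! ### The Vlasov equation -/

lemma FS_comp (F : ℝ → V3 → V3) (t : ℝ) : (fun x => FS F (t, x)) = FF F t := rfl

lemma vol6 : (volume : Measure (ℝ × E3 × E3)) = (volume : Measure ℝ).prod volume :=
  Measure.volume_eq_prod ℝ _

lemma vol4 : (volume : Measure (ℝ × E3)) = (volume : Measure ℝ).prod volume :=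
  Measure.volume_eq_prod ℝ _

lemma vlasov_weak (h : RVM.IsEternalSolution f E B) {φ : ℝ × E3 × E3 → ℝ} (hφ : ContDiff ℝ 1 φ)
    (hc : HasCompactSupport φ) :
    (∫ p in Ioi (0 : ℝ) ×ˢ (univ : Set (E3 × E3)), fS f p
        * fderiv ℝ φ p (1, u p.2.2, FS E (p.1, p.2.1) + cross (u p.2.2) (FS B (p.1, p.2.1))))
      + ∫ z : E3 × E3, fS f (0, z) * φ (0, z) = 0 := by
  have := isAddHaar_prod
  set G : ℝ × E3 × E3 → ℝ := fun p => fS f p * φ p with hG
  have hf1 := fS_c1 h
  have hE1 := FS_c1 h.E_c1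
  have hB1 := FS_c1 h.B_c1
  have hGc : ContDiff ℝ 1 G := hf1.mul hφ
  have hGs : HasCompactSupport G := hc.mul_left
  set X : ℝ × E3 × E3 → E3 × E3 := fun p =>
    (u p.2.2, FS E (p.1, p.2.1) + cross (u p.2.2) (FS B (p.1, p.2.1))) with hX
  have cX : Continuous X := by
    have c4 : Continuous fun p : ℝ × E3 × E3 => u p.2.2 :=
      continuous_u.comp (continuous_snd.comp continuous_snd)
    have c5 : Continuous fun p : ℝ × E3 × E3 => ((p.1, p.2.1) : ℝ × E3) :=
      continuous_fst.prodMk (continuous_fst.comp continuous_snd)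
    have c6 : ContDiff ℝ 1 fun p : ℝ × E3 × E3 => ((p.1, p.2.1) : ℝ × E3) :=
      contDiff_fst.prodMk (contDiff_fst.comp contDiff_snd)
    exact c4.prodMk ((hE1.continuous.comp c5).add
      (contDiff_cross (u_contDiff.comp (contDiff_snd.comp contDiff_snd))
        (hB1.comp c6)).continuous)
  have c1 : Continuous fun p : ℝ × E3 × E3 => fderiv ℝ G p (1, 0) :=
    (hGc.continuous_fderiv (by norm_num)).clm_apply continuous_const
  have c2 : Continuous fun p : ℝ × E3 × E3 => fderiv ℝ G p (0, X p) :=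
    (hGc.continuous_fderiv (by norm_num)).clm_apply (continuous_const.prodMk cX)
  have s1 : HasCompactSupport fun p : ℝ × E3 × E3 => fderiv ℝ G p (1, 0) := hGs.fderiv_apply ℝ _
  have s2 : HasCompactSupport fun p : ℝ × E3 × E3 => fderiv ℝ G p (0, X p) := by
    refine HasCompactSupport.intro (hGs.fderiv (𝕜 := ℝ)) fun p hp => ?_
    rw [image_eq_zero_of_notMem_tsupport hp]
    rfl
  have e1 : ∀ p ∈ Ioi (0 : ℝ) ×ˢ (univ : Set (E3 × E3)),
      fS f p * fderiv ℝ φ p (1, u p.2.2,
        FS E (p.1, p.2.1) + cross (u p.2.2) (FS B (p.1, p.2.1)))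
      = fderiv ℝ G p (1, 0) + fderiv ℝ G p (0, X p) := by
    intro p hp
    have a1 := vlasov_fS h (T := p.1 + 1) (p := p) ⟨hp.1, by linarith⟩
    have a2 : HasFDerivAt G (fS f p • fderiv ℝ φ p + φ p • fderiv ℝ (fS f) p) p :=
      ((hf1.differentiable (by norm_num) p).hasFDerivAt).mul
        ((hφ.differentiable (by norm_num) p).hasFDerivAt)
    rw [← map_add, a2.fderiv]
    have a3 : ((1 : ℝ), (0 : E3 × E3)) + ((0 : ℝ), X p) = ((1 : ℝ), u p.2.2,
        FS E (p.1, p.2.1) + cross (u p.2.2) (FS B (p.1, p.2.1))) := by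
      rw [Prod.mk_add_mk, add_zero, zero_add]
    rw [a3]
    simp only [_root_.add_apply, _root_.smul_apply, smul_eq_mul, a1, mul_zero, add_zero]
  rw [setIntegral_congr_fun (measurableSet_Ioi.prod MeasurableSet.univ) e1, vol6, slab_eq,
    integral_add (slab_int c1 s1) (slab_int c2 s2), slab_dt hGc hGs,
    integral_prod _ (slab_int c2 s2)]
  have e2 : ∀ t : ℝ, ∫ z : E3 × E3, fderiv ℝ G (t, z) (0, X (t, z)) = 0 := by
    intro t
    have b1 : ContDiff ℝ 1 fun z : E3 × E3 => G (t, z) := hGc.comp (contDiff_const.prodMk contDiff_id)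
    have b2 : ContDiff ℝ 1 fun x : E3 => FS E (t, x) := hE1.comp (contDiff_const.prodMk contDiff_id)
    have b3 : ContDiff ℝ 1 fun x : E3 => FS B (t, x) := hB1.comp (contDiff_const.prodMk contDiff_id)
    have b4 := vlasov_ibp_one b1 (hcs_slice' hGs t) b2 b3
    refine Eq.trans (integral_congr_ae (ae_of_all _ fun z => ?_)) b4
    have a2 : HasFDerivAt G (fderiv ℝ G (t, z)) (t, z) :=
      (hGc.differentiable (by norm_num)).differentiableAt.hasFDerivAt
    have a3 := HasFDerivAt.comp (f := fun y : E3 × E3 => (t, y)) z a2 (hasFDerivAt_prodMk_right t z)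
    have a4 : fderiv ℝ (fun z : E3 × E3 => G (t, z)) z
        = (fderiv ℝ G (t, z)).comp (ContinuousLinearMap.inr ℝ ℝ (E3 × E3)) := a3.fderiv
    show fderiv ℝ G (t, z) (0, X (t, z)) = fderiv ℝ (fun z : E3 × E3 => G (t, z)) z (X (t, z))
    rw [a4]
    simp
  simp only [e2, integral_zero, add_zero]
  exact neg_add_cancel _

/-! ### The Maxwell equations -/

lemma int_curl_slice {F H : E3 → E3} (hF : ContDiff ℝ 1 F) (hH : ContDiff ℝ 1 H)
    (hc : HasCompactSupport H) : ∫ x, (⟪F x, curl H x⟫ - ⟪H x, curl F x⟫) = 0 := by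
  have hw : ∀ i, ContDiff ℝ 1 fun y => cross (F y) (H y) i := fun i =>
    contDiff_euclidean.1 (contDiff_cross hF hH) i
  have hws : ∀ i, HasCompactSupport fun y => cross (F y) (H y) i := by
    intro i
    refine HasCompactSupport.intro hc fun y hy => ?_
    rw [image_eq_zero_of_notMem_tsupport hy]
    fin_cases i <;> simp [cross]
  have hwd : ∀ i, ∀ d : E3, Continuous fun z => fderiv ℝ (fun y => cross (F y) (H y) i) z d :=
    fun i d => ((hw i).continuous_fderiv (by norm_num)).clm_apply continuous_const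
  simp_rw [curl_inner hF hH]
  rw [integral_neg, integral_finsetSum]
  · rw [Finset.sum_eq_zero, neg_zero]
    intro i _
    have h1 := ibp_compact (μ := (volume : Measure E3)) (w := fun _ : E3 => (1 : ℝ)) contDiff_const
      (hw i) (hws i) (EuclideanSpace.single i 1)
    simpa using h1
  · intro i _
    exact (hwd i _).integrable_of_hasCompactSupport ((hws i).fderiv_apply ℝ _)

lemma slab_curl {F η : ℝ × E3 → E3} (hF : ContDiff ℝ 1 F) (hη : ContDiff ℝ 1 η)
    (hc : HasCompactSupport η) :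
    ∫ p, (⟪F p, curl (fun y => η (p.1, y)) p.2⟫ - ⟪η p, curl (fun y => F (p.1, y)) p.2⟫)
      ∂((volume.restrict (Ioi (0 : ℝ))).prod (volume : Measure E3)) = 0 := by
  have c1 : Continuous fun p : ℝ × E3 =>
      ⟪F p, curl (fun y => η (p.1, y)) p.2⟫ - ⟪η p, curl (fun y => F (p.1, y)) p.2⟫ :=
    (hF.continuous.inner (continuous_curl_slice hη)).sub
      (hη.continuous.inner (continuous_curl_slice hF))
  have s1 : HasCompactSupport fun p : ℝ × E3 =>
      ⟪F p, curl (fun y => η (p.1, y)) p.2⟫ - ⟪η p, curl (fun y => F (p.1, y)) p.2⟫ := by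
    refine HasCompactSupport.intro
      ((hasCompactSupport_curl_slice hη hc).isCompact.union hc.isCompact) fun p hp => ?_
    rw [image_eq_zero_of_notMem_tsupport (f := η) fun h => hp (Or.inr h),
      image_eq_zero_of_notMem_tsupport (f := fun p : ℝ × E3 => curl (fun y => η (p.1, y)) p.2)
        fun h => hp (Or.inl h)]
    simp
  rw [integral_prod _ (slab_int c1 s1)]
  have e2 : ∀ t : ℝ, ∫ x : E3, (⟪F (t, x), curl (fun y => η (t, y)) x⟫
      - ⟪η (t, x), curl (fun y => F (t, y)) x⟫) = 0 := by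
    intro t
    have b1 : ContDiff ℝ 1 fun x : E3 => F (t, x) := hF.comp (contDiff_const.prodMk contDiff_id)
    have b2 : ContDiff ℝ 1 fun x : E3 => η (t, x) := hη.comp (contDiff_const.prodMk contDiff_id)
    refine int_curl_slice b1 b2 ?_
    refine HasCompactSupport.intro (hc.image continuous_snd) fun x hx => ?_
    by_contra hne
    exact hx ⟨(t, x), subset_tsupport _ hne, rfl⟩
  simp only [e2, integral_zero]

lemma inner_dt {F η : ℝ × E3 → E3} (hF : ContDiff ℝ 1 F) (hη : ContDiff ℝ 1 η) (p w : ℝ × E3) :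
    fderiv ℝ (fun p => ⟪F p, η p⟫) p w = ⟪F p, fderiv ℝ η p w⟫ + ⟪fderiv ℝ F p w, η p⟫ :=
  fderiv_inner_apply ℝ (hF.differentiable (by norm_num) p) (hη.differentiable (by norm_num) p) w

lemma hcs_inner {F η : ℝ × E3 → E3} (hc : HasCompactSupport η) :
    HasCompactSupport fun p => ⟪F p, η p⟫ := by
  refine HasCompactSupport.intro hc fun p hp => ?_
  rw [image_eq_zero_of_notMem_tsupport hp, inner_zero_right]

/-- The general form of the two laws: the evolution `∂ₜF = s curl H - J`. -/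
lemma maxwell_weak {F H η : ℝ × E3 → E3} (hF : ContDiff ℝ 1 F) (hH : ContDiff ℝ 1 H)
    (hη : ContDiff ℝ 1 η) (hc : HasCompactSupport η) (s : ℝ) :
    (∫ p in Ioi (0 : ℝ) ×ˢ (univ : Set E3), (⟪F p, fderiv ℝ η p (1, 0)⟫
        + s * ⟪H p, curl (fun y => η (p.1, y)) p.2⟫))
      - (∫ p in Ioi (0 : ℝ) ×ˢ (univ : Set E3),
          ⟪s • curl (fun y => H (p.1, y)) p.2 - fderiv ℝ F p (1, 0), η p⟫)
      + ∫ x, ⟪F (0, x), η (0, x)⟫ = 0 := by
  have cF := hF.continuous
  have cH := hH.continuous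
  have cη := hη.continuous
  have cFd : Continuous fun p : ℝ × E3 => fderiv ℝ F p (1, 0) :=
    (hF.continuous_fderiv (by norm_num)).clm_apply continuous_const
  have cηd : Continuous fun p : ℝ × E3 => fderiv ℝ η p (1, 0) :=
    (hη.continuous_fderiv (by norm_num)).clm_apply continuous_const
  have cHc := continuous_curl_slice hH
  have cηc := continuous_curl_slice hη
  have sη : ∀ p, p ∉ tsupport η → η p = 0 := fun p hp => image_eq_zero_of_notMem_tsupport hp
  have sηd : HasCompactSupport fun p : ℝ × E3 => fderiv ℝ η p (1, 0) := hc.fderiv_apply ℝ _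
  have sηc := hasCompactSupport_curl_slice hη hc
  have i1 : Integrable (fun p : ℝ × E3 => ⟪F p, fderiv ℝ η p (1, 0)⟫
      + s * ⟪H p, curl (fun y => η (p.1, y)) p.2⟫)
      ((volume.restrict (Ioi (0 : ℝ))).prod (volume : Measure E3)) := by
    refine Integrable.add (slab_int (cF.inner cηd) (hcs_inner sηd)) (Integrable.const_mul
      (slab_int (cH.inner cηc) (hcs_inner sηc)) s)
  have i2 : Integrable (fun p : ℝ × E3 =>
      ⟪s • curl (fun y => H (p.1, y)) p.2 - fderiv ℝ F p (1, 0), η p⟫)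
      ((volume.restrict (Ioi (0 : ℝ))).prod (volume : Measure E3)) :=
    slab_int (((cHc.const_smul s).sub cFd).inner cη) (hcs_inner hc)
  have hG : ContDiff ℝ 1 fun p => ⟪F p, η p⟫ := hF.inner ℝ hη
  have hGs : HasCompactSupport fun p => ⟪F p, η p⟫ := hcs_inner hc
  have k1 := slab_dt (μ := (volume : Measure E3)) hG hGs
  have k2 := slab_curl hH hη hc
  have i3 : Integrable (fun p : ℝ × E3 => fderiv ℝ (fun p => ⟪F p, η p⟫) p (1, 0))
      ((volume.restrict (Ioi (0 : ℝ))).prod (volume : Measure E3)) :=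
    slab_int ((hG.continuous_fderiv (by norm_num)).clm_apply continuous_const)
      (hGs.fderiv_apply ℝ _)
  have i4 : Integrable (fun p : ℝ × E3 => ⟪H p, curl (fun y => η (p.1, y)) p.2⟫
      - ⟪η p, curl (fun y => H (p.1, y)) p.2⟫)
      ((volume.restrict (Ioi (0 : ℝ))).prod (volume : Measure E3)) := by
    refine Integrable.sub (slab_int (cH.inner cηc) (hcs_inner sηc)) (slab_int (cη.inner cHc) ?_)
    refine HasCompactSupport.intro hc fun p hp => ?_
    rw [sη p hp, inner_zero_left]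
  rw [vol4, slab_eq, slab_eq, ← integral_sub i1 i2]
  have e1 : ∀ p : ℝ × E3, (⟪F p, fderiv ℝ η p (1, 0)⟫
      + s * ⟪H p, curl (fun y => η (p.1, y)) p.2⟫)
      - ⟪s • curl (fun y => H (p.1, y)) p.2 - fderiv ℝ F p (1, 0), η p⟫
      = fderiv ℝ (fun p => ⟪F p, η p⟫) p (1, 0)
        + s * (⟪H p, curl (fun y => η (p.1, y)) p.2⟫
          - ⟪η p, curl (fun y => H (p.1, y)) p.2⟫) := by
    intro p
    rw [inner_dt hF hη, inner_sub_left, real_inner_smul_left,
      real_inner_comm (curl (fun y => H (p.1, y)) p.2) (η p)]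
    ring
  simp only [e1]
  rw [integral_add i3 (i4.const_mul s), integral_const_mul, k2, k1]
  ring

lemma ampere_weak (h : RVM.IsEternalSolution f E B) {η : ℝ × E3 → E3} (hη : ContDiff ℝ 1 η)
    (hc : HasCompactSupport η) :
    (∫ p in Ioi (0 : ℝ) ×ˢ (univ : Set E3), (⟪FS E p, fderiv ℝ η p (1, 0)⟫
        + ⟪FS B p, curl (fun y => η (p.1, y)) p.2⟫))
      - (∫ p in Ioi (0 : ℝ) ×ˢ (univ : Set (E3 × E3)), fS f p * ⟪u p.2.2, η (p.1, p.2.1)⟫)
      + ∫ x, ⟪FS E (0, x), η (0, x)⟫ = 0 := by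
  have := isAddHaar_prod
  have hE1 := FS_c1 h.E_c1
  have hB1 := FS_c1 h.B_c1
  have cf := (fS_c1 h).continuous
  have k := maxwell_weak hE1 hB1 hη hc 1
  simp only [one_mul, one_smul] at k
  have e : (∫ p in Ioi (0 : ℝ) ×ˢ (univ : Set (E3 × E3)), fS f p * ⟪u p.2.2, η (p.1, p.2.1)⟫)
      = ∫ p in Ioi (0 : ℝ) ×ˢ (univ : Set E3),
          ⟪curl (fun y => FS B (p.1, y)) p.2 - fderiv ℝ (FS E) p (1, 0), η p⟫ := by
    -- the support in time
    obtain ⟨T, hT0, hT⟩ : ∃ T : ℝ, 0 ≤ T ∧ ∀ p : ℝ × E3, η p ≠ 0 → |p.1| ≤ T := by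
      obtain ⟨T, hT⟩ := hc.isCompact.isBounded.exists_norm_le
      refine ⟨max T 0, le_max_right _ _, fun p hp => ?_⟩
      have h1 := hT p (subset_tsupport _ hp)
      have h2 : |p.1| ≤ ‖p‖ := by
        rw [← Real.norm_eq_abs]
        exact norm_fst_le p
      exact (h2.trans h1).trans (le_max_left _ _)
    obtain ⟨R, hR⟩ := h.compact_support T
    have cη := hη.continuous
    have c1 : Continuous fun p : ℝ × E3 × E3 => fS f p * ⟪u p.2.2, η (p.1, p.2.1)⟫ := by
      have c4 : Continuous fun p : ℝ × E3 × E3 => u p.2.2 :=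
        continuous_u.comp (continuous_snd.comp continuous_snd)
      have c5 : Continuous fun p : ℝ × E3 × E3 => ((p.1, p.2.1) : ℝ × E3) :=
        continuous_fst.prodMk (continuous_fst.comp continuous_snd)
      exact cf.mul (c4.inner (cη.comp c5))
    have s1 : HasCompactSupport fun p : ℝ × E3 × E3 =>
        fS f p * ⟪u p.2.2, η (p.1, p.2.1)⟫ := by
      refine HasCompactSupport.intro ((isCompact_Icc (a := -T) (b := T)).prod (isCompact_KR R))
        fun p hp => ?_
      by_contra hne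
      have h1 : η (p.1, p.2.1) ≠ 0 := fun h0 => hne (by rw [h0, inner_zero_right, mul_zero])
      have h2 : fS f p ≠ 0 := fun h0 => hne (by rw [h0, zero_mul])
      have h3 := hT _ h1
      have h4 := hR p.1 (coo p.2.1) (coo p.2.2) h3 h2
      rw [len_coo, len_coo] at h4
      exact hp ⟨abs_le.1 h3, by simpa using h4.1, by simpa using h4.2⟩
    have c2 : Continuous fun p : ℝ × E3 =>
        ⟪curl (fun y => FS B (p.1, y)) p.2 - fderiv ℝ (FS E) p (1, 0), η p⟫ :=
      ((continuous_curl_slice hB1).sub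
        ((hE1.continuous_fderiv (by norm_num)).clm_apply continuous_const)).inner cη
    rw [vol6, slab_eq, vol4, slab_eq, integral_prod _ (slab_int c1 s1),
      integral_prod _ (slab_int c2 (hcs_inner hc))]
    refine setIntegral_congr_fun measurableSet_Ioi fun t ht => ?_
    have hs := isClassicalSolution_ff (h.classical (t + 1))
    have htI : t ∈ Ioo 0 (t + 1) := ⟨ht, by linarith⟩
    have i1 : Integrable fun z : E3 × E3 => fS f (t, z) * ⟪u z.2, η (t, z.1)⟫ :=
      (c1.comp (continuous_const.prodMk continuous_id)).integrable_of_hasCompactSupport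
        (hcs_slice' s1 t)
    have e3 : (∫ z : E3 × E3, fS f (t, z) * ⟪u z.2, η (t, z.1)⟫)
        = ∫ x : E3, ∫ v : E3, fS f (t, x, v) * ⟪u v, η (t, x)⟫ := by
      have i1' := i1
      rw [Measure.volume_eq_prod] at i1' ⊢
      exact integral_prod _ i1'
    show (∫ z : E3 × E3, fS f (t, z) * ⟪u z.2, η (t, z.1)⟫) = _
    rw [e3]
    refine integral_congr_ae (ae_of_all _ fun x => ?_)
    have a1 := hs.ampere_fderiv htI x
    have a2 : curl (fun y => FS B (t, y)) x - fderiv ℝ (FS E) (t, x) (1, 0)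
        = ∫ v, fS f (t, x, v) • u v := by
      have a3 : fderiv ℝ (FS E) (t, x) (1, 0) = curl (FF B t) x - cur (ff f) t x := a1
      rw [a3]
      show curl (FF B t) x - (curl (FF B t) x - cur (ff f) t x) = _
      rw [sub_sub_cancel]
      rfl
    show (∫ v : E3, fS f (t, x, v) * ⟪u v, η (t, x)⟫)
      = ⟪curl (fun y => FS B (t, y)) x - fderiv ℝ (FS E) (t, x) (1, 0), η (t, x)⟫
    rw [a2]
    have ht' : t ∈ Ico 0 (t + 1) := ⟨le_of_lt ht, by linarith⟩
    have hfv : Continuous fun v => fS f (t, x, v) := cf.comp (by fun_prop)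
    obtain ⟨R', hR'⟩ := hs.exists_support ht'
    have hsupp : HasCompactSupport fun v => fS f (t, x, v) := by
      refine HasCompactSupport.intro (isCompact_closedBall (0 : E3) R') fun v hv => ?_
      exact hR' t ⟨le_of_lt ht, le_refl _⟩ (x, v) (fun hz => hv hz.2)
    have hi : Integrable fun v => fS f (t, x, v) • u v :=
      (hfv.smul continuous_u).integrable_of_hasCompactSupport (HasCompactSupport.smul_right hsupp)
    rw [real_inner_comm, ← integral_inner hi]
    refine integral_congr_ae (ae_of_all _ fun v => ?_)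
    show fS f (t, x, v) * ⟪u v, η (t, x)⟫ = ⟪η (t, x), fS f (t, x, v) • u v⟫
    rw [real_inner_smul_right, real_inner_comm]
  rw [e]
  exact k

lemma faraday_weak (h : RVM.IsEternalSolution f E B) {η : ℝ × E3 → E3} (hη : ContDiff ℝ 1 η)
    (hc : HasCompactSupport η) :
    (∫ p in Ioi (0 : ℝ) ×ˢ (univ : Set E3), (⟪FS B p, fderiv ℝ η p (1, 0)⟫
        - ⟪FS E p, curl (fun y => η (p.1, y)) p.2⟫))
      + ∫ x, ⟪FS B (0, x), η (0, x)⟫ = 0 := by
  have hE1 := FS_c1 h.E_c1
  have hB1 := FS_c1 h.B_c1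
  have k := maxwell_weak hB1 hE1 hη hc (-1)
  have e : (∫ p in Ioi (0 : ℝ) ×ˢ (univ : Set E3),
      ⟪(-1 : ℝ) • curl (fun y => FS E (p.1, y)) p.2 - fderiv ℝ (FS B) p (1, 0), η p⟫) = 0 := by
    refine setIntegral_eq_zero_of_forall_eq_zero fun p hp => ?_
    have hs := isClassicalSolution_ff (h.classical (p.1 + 1))
    have a1 : fderiv ℝ (FS B) p (1, 0) = - curl (fun y => FS E (p.1, y)) p.2 :=
      hs.faraday_fderiv (t := p.1) ⟨hp.1, by linarith⟩ p.2
    simp only [a1, neg_smul, one_smul, sub_neg_eq_add, neg_add_cancel, inner_zero_left]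
  rw [e, sub_zero] at k
  simp only [neg_mul, one_mul, ← sub_eq_add_neg] at k
  exact k

/-! ### The energy -/

lemma energy_fS (h : RVM.IsEternalSolution f E B) {t : ℝ} (ht : 0 ≤ t) :
    (∫⁻ z : E3 × E3, ENNReal.ofReal (q z.2 * fS f (t, z)))
      + (∫⁻ x, ENNReal.ofReal (‖FS E (t, x)‖ ^ 2 + ‖FS B (t, x)‖ ^ 2)) / 2
    = ENNReal.ofReal (RVM.totalEnergy f E B t) := by
  have := isAddHaar_prod
  have hs := isClassicalSolution_ff (h.classical (t + 1))
  have ht' : t ∈ Ico 0 (t + 1) := ⟨ht, by linarith⟩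
  have i1 : Integrable fun z : E3 × E3 => q z.2 * fS f (t, z) :=
    ((continuous_q.comp continuous_snd).mul
      (hs.f_slice ht').continuous).integrable_of_hasCompactSupport
      (HasCompactSupport.mul_left (hs.hasCompactSupport ht'))
  have i2 : Integrable fun x : E3 => ‖FS E (t, x)‖ ^ 2 + ‖FS B (t, x)‖ ^ 2 :=
    (integrable_norm_sq (hs.E_memLp t ht')).add (integrable_norm_sq (hs.B_memLp t ht'))
  have n1 : ∀ z : E3 × E3, 0 ≤ q z.2 * fS f (t, z) := fun z =>
    mul_nonneg (q_pos z.2).le (h.f_nonneg _ _ _)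
  have n2 : ∀ x : E3, 0 ≤ ‖FS E (t, x)‖ ^ 2 + ‖FS B (t, x)‖ ^ 2 := fun x => by positivity
  rw [← ofReal_integral_eq_lintegral_ofReal i1 (ae_of_all _ n1),
    ← ofReal_integral_eq_lintegral_ofReal i2 (ae_of_all _ n2)]
  have e1 := RVM.H706.totalEnergy_ff (h.classical (t + 1)) ht'
  rw [integral_div] at e1
  have e2 : ENNReal.ofReal (∫ x : E3, (‖FS E (t, x)‖ ^ 2 + ‖FS B (t, x)‖ ^ 2)) / 2
      = ENNReal.ofReal ((∫ x : E3, (‖FS E (t, x)‖ ^ 2 + ‖FS B (t, x)‖ ^ 2)) / 2) := by
    rw [ENNReal.ofReal_div_of_pos two_pos, ENNReal.ofReal_ofNat]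
  rw [e2, ← ENNReal.ofReal_add (integral_nonneg n1)
    (div_nonneg (integral_nonneg n2) two_pos.le)]
  congr 1
  rw [e1, add_comm]
  rfl

/-- **A classical solution is a weak solution**, in the Euclidean space. -/
theorem weak3_of_eternal (h : RVM.IsEternalSolution f E B) :
    H706.Weak3 (fun z => fS f (0, z)) (fun x => FS E (0, x)) (fun x => FS B (0, x))
      (fS f) (FS E) (FS B) where
  g_meas := (fS_c1 h).continuous.measurable
  E_meas := (FS_c1 h.E_c1).continuous.measurable
  B_meas := (FS_c1 h.B_c1).continuous.measurable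
  g_nonneg := fun p => h.f_nonneg _ _ _
  l2_le := by
    refine ae_of_all _ fun t ht => le_of_eq ?_
    have hs := isClassicalSolution_ff (h.classical (t + 1))
    have ht0 : 0 < t := ht
    have htI : t ∈ Ico 0 (t + 1) := ⟨ht0.le, by linarith⟩
    have hm : Measurable fun y : ℝ => ENNReal.ofReal (y ^ 2) :=
      (measurable_id.pow_const 2).ennreal_ofReal
    exact H706.casimir hs htI (Φ := fun y : ℝ => ENNReal.ofReal (y ^ 2)) hm (by simp)
  energy_le := by
    refine ae_of_all _ fun t ht => le_of_eq ?_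
    rw [energy_fS h ht.le, energy_fS h le_rfl, RVM.H706.totalEnergy_eq h t 0]
  vlasov := fun φ hφ hc => vlasov_weak h hφ hc
  ampere := fun η hη hc => ampere_weak h hη hc
  faraday := fun η hη hc => faraday_weak h hη hc

/-! ### Transfer -/

variable {f₀ : V3 → V3 → ℝ} {E₀ B₀ : V3 → V3} {g : ℝ → V3 → V3 → ℝ} {E' B' : ℝ → V3 → V3}

lemma tf_back (φ : ℝ × V3 × V3 → ℝ) : tf (φ ∘ c3) = φ := by
  funext p
  simp [tf]

lemma tg_back (η : ℝ × V3 → V3) : tg (coo.symm ∘ η ∘ d2) = η := by
  funext p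
  simp [tg]

theorem weak_of_weak3 (hg : Measurable fun p : ℝ × V3 × V3 => g p.1 p.2.1 p.2.2)
    (hE : Measurable fun p : ℝ × V3 => E' p.1 p.2) (hB : Measurable fun p : ℝ × V3 => B' p.1 p.2)
    (hn : ∀ t x v, 0 ≤ g t x v)
    (h : H706.Weak3 (fun z => f₀ (coo z.1) (coo z.2)) (fun x => coo.symm (E₀ (coo x)))
      (fun x => coo.symm (B₀ (coo x))) (fun p => g p.1 (coo p.2.1) (coo p.2.2))
      (fun p => coo.symm (E' p.1 (coo p.2))) (fun p => coo.symm (B' p.1 (coo p.2)))) :
    RVM.IsWeakSolution f₀ E₀ B₀ g E' B' where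
  g_meas := hg
  E_meas := hE
  B_meas := hB
  g_nonneg := hn
  l2_le := by
    filter_upwards [h.l2_le] with t ht h0
    have h1 := lint_c2 (fun z => ENNReal.ofReal (g t z.1 z.2 ^ 2))
    have h2 := lint_c2 (fun z => ENNReal.ofReal (f₀ z.1 z.2 ^ 2))
    exact (h1.symm.trans_le (ht h0)).trans_eq h2
  energy_le := by
    filter_upwards [h.energy_le] with t ht h0
    have h1 := lint_c2 (fun z => ENNReal.ofReal (RVM.q z.2 * g t z.1 z.2))
    have h2 := lint_c2 (fun z => ENNReal.ofReal (RVM.q z.2 * f₀ z.1 z.2))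
    have h3 := lint_coo (fun x => ENNReal.ofReal (RVM.len (E' t x) ^ 2 + RVM.len (B' t x) ^ 2))
    have h4 := lint_coo (fun x => ENNReal.ofReal (RVM.len (E₀ x) ^ 2 + RVM.len (B₀ x) ^ 2))
    simp only [q_coo] at h1 h2
    have h5 := ht h0
    simp only [norm_symm] at h5
    rw [h1, h2, h3, h4] at h5
    exact h5
  vlasov := by
    intro φ hφ hs
    have h1 := h.vlasov (φ ∘ c3) (hφ.comp c3.contDiff) (hs.comp_homeomorph c3.toHomeomorph)
    rw [← tf_back φ, ← int_c3, ← int_c2]
    refine Eq.trans (Eq.symm ?_) h1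
    refine congrArg₂ (· + ·) ?_ ?_
    · refine setIntegral_congr_fun (measurableSet_Ioi.prod MeasurableSet.univ) fun p _ => ?_
      have h2 := tf_fderiv (φ ∘ c3) p (1, RVM.u (coo p.2.2),
        E' p.1 (coo p.2.1) + RVM.cross (RVM.u (coo p.2.2)) (B' p.1 (coo p.2.1)))
      rw [c3_apply, c3_symm_apply] at h2
      simp only [map_add, symm_u, symm_cross] at h2
      simp only [h2]
    · refine integral_congr_ae (ae_of_all _ fun z => ?_)
      have h2 := tf_apply (φ ∘ c3) (0, z)
      rw [c3_apply] at h2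
      simp only [h2]
  ampere := by
    intro η hη hs
    have hη' : ContDiff ℝ 1 (coo.symm ∘ η ∘ d2) :=
      coo.symm.contDiff.comp (hη.comp d2.contDiff)
    have hs' : HasCompactSupport (coo.symm ∘ η ∘ d2) :=
      (hs.comp_homeomorph d2.toHomeomorph).comp_left (map_zero coo.symm)
    have h1 := h.ampere _ hη' hs'
    rw [← tg_back η, ← int_c3, ← int_d2, ← integral_coo]
    refine Eq.trans (Eq.symm ?_) h1
    congr 1
    · congr 1
      · refine setIntegral_congr_fun (measurableSet_Ioi.prod MeasurableSet.univ) fun p _ => ?_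
        have h2 := tg_fderiv (coo.symm ∘ η ∘ d2) p (1, 0)
        rw [d2_apply, d2_symm_apply] at h2
        simp only [map_zero] at h2
        simp only [inner_eq, symm_apply, h2, tg_curl, coo_apply, Finset.sum_add_distrib]
      · refine setIntegral_congr_fun (measurableSet_Ioi.prod MeasurableSet.univ) fun p _ => ?_
        have h2 := tg_apply (coo.symm ∘ η ∘ d2) (p.1, p.2.1)
        rw [d2_apply] at h2
        simp only [inner_eq, u_coo, h2, coo_apply]
    · refine integral_congr_ae (ae_of_all _ fun x => ?_)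
      have h2 := tg_apply (coo.symm ∘ η ∘ d2) (0, x)
      rw [d2_apply] at h2
      simp only [inner_eq, symm_apply, h2, coo_apply]
  faraday := by
    intro η hη hs
    have hη' : ContDiff ℝ 1 (coo.symm ∘ η ∘ d2) :=
      coo.symm.contDiff.comp (hη.comp d2.contDiff)
    have hs' : HasCompactSupport (coo.symm ∘ η ∘ d2) :=
      (hs.comp_homeomorph d2.toHomeomorph).comp_left (map_zero coo.symm)
    have h1 := h.faraday _ hη' hs'
    rw [← tg_back η, ← int_d2, ← integral_coo]
    refine Eq.trans (Eq.symm ?_) h1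
    congr 1
    · refine setIntegral_congr_fun (measurableSet_Ioi.prod MeasurableSet.univ) fun p _ => ?_
      have h2 := tg_fderiv (coo.symm ∘ η ∘ d2) p (1, 0)
      rw [d2_apply, d2_symm_apply] at h2
      simp only [map_zero] at h2
      simp only [inner_eq, symm_apply, h2, tg_curl, coo_apply, Finset.sum_sub_distrib]
    · refine integral_congr_ae (ae_of_all _ fun x => ?_)
      have h2 := tg_apply (coo.symm ∘ η ∘ d2) (0, x)
      rw [d2_apply] at h2
      simp only [inner_eq, symm_apply, h2, coo_apply]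

end Vale.Agent.P107.H429.CW

namespace Vale.Agent.P107.H429

/-- **A classical solution is a finite-energy weak solution.** -/
theorem isWeakSolution_of_eternal {f : ℝ → RVM.V3 → RVM.V3 → ℝ} {E B : ℝ → RVM.V3 → RVM.V3}
    (h : RVM.IsEternalSolution f E B) : RVM.IsWeakSolution (f 0) (E 0) (B 0) f E B :=
  CW.weak_of_weak3 h.f_c1.continuous.measurable h.E_c1.continuous.measurable
    h.B_c1.continuous.measurable h.f_nonneg (CW.weak3_of_eternal h)

end Vale.Agent.P107.H429
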