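import Vale.Agent.P107.H706.WS2
import Vale.Agent.P107.H706.Energy
import Vale.Agent.P107.H706.Casimir
import Vale.Agent.P107.H706.Symm
import Vale.Agent.P107.H429.WeakTransfer

/-!
A classical solution on the whole time axis with a bounded electric field satisfies the facts used
in the weak-strong uniqueness.
-/

attribute [-instance] ProperSMul.toContinuousSMul IsTopologicalTorsor.toContinuousSMul
  IdemSemiring.toCanonicallyOrderedAdd IdemSemiring.toMulLeftMono IdemSemiring.toMulRightMono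
  AddQuantale.instAddLeftMono AddQuantale.instAddRightMono Quantale.instMulLeftMono
  Quantale.instMulRightMono FiniteDimensional.rclike_to_real IsScalarTower.complexToReal
  FiniteDimensional.complexToReal

open MeasureTheory Set Filter Topology
open scoped RealInnerProductSpace ENNReal NNReal

namespace Vale.Agent.P107.H429

open RVM (V3)
open Cn H706

/-- the density on space-time-momentum -/
noncomputable def fS (f : ℝ → V3 → V3 → ℝ) (p : ℝ × E3 × E3) : ℝ := f p.1 (coo p.2.1) (coo p.2.2)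

/-- the field on space-time -/
noncomputable def FS (F : ℝ → V3 → V3) (p : ℝ × E3) : E3 := coo.symm (F p.1 (coo p.2))

variable {f : ℝ → V3 → V3 → ℝ} {E B : ℝ → V3 → V3}

lemma fS_c1 (h : RVM.IsEternalSolution f E B) : ContDiff ℝ 1 (fS f) :=
  h.f_c1.comp c3.contDiff

lemma FS_c1 {F : ℝ → V3 → V3} (h : ContDiff ℝ 1 fun z : ℝ × V3 => F z.1 z.2) :
    ContDiff ℝ 1 (FS F) :=
  coo.symm.contDiff.comp (h.comp d2.contDiff)

lemma fS_slice (f : ℝ → V3 → V3 → ℝ) : (fun y : ℝ × E3 × E3 => ff f y.1 y.2.1 y.2.2) = fS f := rfl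

lemma FS_slice (F : ℝ → V3 → V3) : (fun y : ℝ × E3 => FF F y.1 y.2) = FS F := rfl

/-- support -/
lemma exists_R (h : RVM.IsEternalSolution f E B) (T : ℝ) :
    ∃ R : ℝ, 0 ≤ R ∧ ∀ p : ℝ × E3 × E3, p.1 ∈ Icc (-2) T → fS f p ≠ 0 →
      ‖p.2.1‖ ≤ R ∧ ‖p.2.2‖ ≤ R := by
  obtain ⟨R, hR⟩ := h.compact_support (max 2 T)
  refine ⟨max R 0, le_max_right _ _, fun p hp hne => ?_⟩
  have h1 : |p.1| ≤ max 2 T := by
    rw [abs_le]
    constructor
    · have := le_max_left 2 T
      linarith [hp.1]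
    · exact hp.2.trans (le_max_right _ _)
  have h2 := hR p.1 (coo p.2.1) (coo p.2.2) h1 hne
  rw [len_coo, len_coo] at h2
  exact ⟨h2.1.trans (le_max_left _ _), h2.2.trans (le_max_left _ _)⟩

/-- The derivative vanishes where the function vanishes nearby. -/
lemma fderiv_zero_of_eventually {X : Type*} [NormedAddCommGroup X] [NormedSpace ℝ X]
    {g : X → ℝ} {p : X} (h : ∀ᶠ y in 𝓝 p, g y = 0) : fderiv ℝ g p = 0 := by
  have h1 : g =ᶠ[𝓝 p] fun _ => (0 : ℝ) := h
  rw [h1.fderiv_eq]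
  simp

/-- The bound of the derivative. -/
lemma exists_L (h : RVM.IsEternalSolution f E B) {T R : ℝ}
    (hR : ∀ p : ℝ × E3 × E3, p.1 ∈ Icc (-2) T → fS f p ≠ 0 → ‖p.2.1‖ ≤ R ∧ ‖p.2.2‖ ≤ R)
    {Q : ℝ} (hQ : R ≤ Q) :
    ∃ L : ℝ, 0 ≤ L ∧ ∀ p : ℝ × E3 × E3, p.1 ∈ Ioo 0 T → ∀ a : E3,
      |fderiv ℝ (fS f) p (0, 0, a)| ≤ L * ‖a‖ * ind Q p.2.2 := by
  have hc : Continuous (fderiv ℝ (fS f)) := (fS_c1 h).continuous_fderiv (by norm_num)
  obtain ⟨L, hL⟩ := ((isCompact_Icc (a := (0 : ℝ)) (b := T)).prod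
    (isCompact_KR R)).exists_bound_of_continuousOn hc.continuousOn
  refine ⟨max L 0, le_max_right _ _, fun p hp a => ?_⟩
  by_cases hz : p.2 ∈ Metric.closedBall (0 : E3) R ×ˢ Metric.closedBall (0 : E3) R
  · have h1 : ‖p.2.2‖ ≤ R := by simpa using hz.2
    rw [ind_eq_one (h1.trans hQ), mul_one]
    have h2 : ‖fderiv ℝ (fS f) p‖ ≤ max L 0 :=
      (hL p ⟨Ioo_subset_Icc_self hp, hz⟩).trans (le_max_left _ _)
    have h3 := (fderiv ℝ (fS f) p).le_opNorm ((0, 0, a) : ℝ × E3 × E3)
    have h4 : ‖((0, 0, a) : ℝ × E3 × E3)‖ = ‖a‖ := by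
      simp [Prod.norm_def]
    rw [h4, Real.norm_eq_abs] at h3
    exact h3.trans (mul_le_mul_of_nonneg_right h2 (norm_nonneg a))
  · have hopen : IsOpen {y : ℝ × E3 × E3 | y.1 ∈ Ioo 0 T ∧
        y.2 ∉ Metric.closedBall (0 : E3) R ×ˢ Metric.closedBall (0 : E3) R} := by
      refine (isOpen_Ioo.preimage continuous_fst).inter ?_
      exact ((isCompact_KR R).isClosed.isOpen_compl).preimage continuous_snd
    have h1 : ∀ᶠ y in 𝓝 p, fS f y = 0 := by
      filter_upwards [hopen.mem_nhds ⟨hp, hz⟩] with y hy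
      by_contra hne
      have h2 := hR y ⟨by linarith [hy.1.1], hy.1.2.le⟩ hne
      exact hy.2 ⟨by simpa using h2.1, by simpa using h2.2⟩
    rw [fderiv_zero_of_eventually h1]
    have h2 : 0 ≤ max L 0 * ‖a‖ * ind Q p.2.2 :=
      mul_nonneg (mul_nonneg (le_max_right _ _) (norm_nonneg a)) (ind_nonneg _ _)
    simpa using h2

lemma q_le (v : E3) : q v ≤ 1 + ‖v‖ := q_le_one_add_norm v

/-- The Vlasov equation on space-time-momentum. -/
lemma vlasov_fS (h : RVM.IsEternalSolution f E B) {T : ℝ} {p : ℝ × E3 × E3} (hp : p.1 ∈ Ioo 0 T) :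
    fderiv ℝ (fS f) p (1, u p.2.2, FS E (p.1, p.2.1) + cross (u p.2.2) (FS B (p.1, p.2.1))) = 0 := by
  have hs := isClassicalSolution_ff (h.classical T)
  have h1 := hs.vlasov_fderiv hp p.2
  have hf : HasFDerivAt (fS f) (fderiv ℝ (fS f) p) (p.1, p.2) :=
    ((fS_c1 h).differentiable (by norm_num) p).hasFDerivAt
  have h2 : HasFDerivAt (fun y : E3 × E3 => ff f p.1 y.1 y.2)
      ((fderiv ℝ (fS f) p).comp (ContinuousLinearMap.inr ℝ ℝ (E3 × E3))) p.2 :=
    HasFDerivAt.comp (f := fun y : E3 × E3 => (p.1, y)) p.2 hf (hasFDerivAt_prodMk_right p.1 p.2)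
  rw [h2.fderiv] at h1
  simp only [ContinuousLinearMap.comp_apply, ContinuousLinearMap.inr_apply] at h1
  have h3 : fderiv ℝ (fun y : ℝ × E3 × E3 => ff f y.1 y.2.1 y.2.2) (p.1, p.2) = fderiv ℝ (fS f) p :=
    rfl
  rw [h3] at h1
  have h4 : ((1 : ℝ), u p.2.2, FS E (p.1, p.2.1) + cross (u p.2.2) (FS B (p.1, p.2.1)))
      = ((1 : ℝ), (0 : E3 × E3)) + ((0 : ℝ),
        (u p.2.2, FF E p.1 p.2.1 + cross (u p.2.2) (FF B p.1 p.2.1))) := by
    rw [Prod.mk_add_mk, add_zero, zero_add]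
    rfl
  rw [h4, map_add, h1]
  exact neg_add_cancel _

/-- The kinetic energy at time `t`. -/
lemma kin_fS (f : ℝ → V3 → V3 → ℝ) (t : ℝ) :
    ∫ z : E3 × E3, q z.2 * fS f (t, z) = kin (ff f) t := rfl

/-- The work of the electric field. -/
lemma work_fS (h : RVM.IsEternalSolution f E B) {T : ℝ} (hT : 0 < T) (k : ℝ) (ν : ℕ) :
    ∫ p, (tha1 T k ν p.1 * (q p.2.2 * fS f p)
      + tha T k ν p.1 * (fS f p * ⟪u p.2.2, FS E (p.1, p.2.1)⟫)) ∂(m6 T)
    = - (tha T k ν 0 * ∫ z : E3 × E3, q z.2 * fS f (0, z)) := by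
  have := isAddHaar_prod
  have hs := isClassicalSolution_ff (h.classical (T + 1))
  obtain ⟨R, -, hR⟩ := exists_R h T
  set G : ℝ × E3 × E3 → ℝ := fun p => tha1 T k ν p.1 * (q p.2.2 * fS f p)
      + tha T k ν p.1 * (fS f p * ⟪u p.2.2, FS E (p.1, p.2.1)⟫) with hG
  have cf : Continuous (fS f) := (fS_c1 h).continuous
  have cE : Continuous (FS E) := (FS_c1 h.E_c1).continuous
  have cG : Continuous G := by
    have c1 : Continuous fun p : ℝ × E3 × E3 => tha1 T k ν p.1 := continuous_tha1.comp continuous_fst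
    have c2 : Continuous fun p : ℝ × E3 × E3 => tha T k ν p.1 :=
      contDiff_tha.continuous.comp continuous_fst
    have c3 : Continuous fun p : ℝ × E3 × E3 => q p.2.2 :=
      continuous_q.comp (continuous_snd.comp continuous_snd)
    have c4 : Continuous fun p : ℝ × E3 × E3 => u p.2.2 :=
      continuous_u.comp (continuous_snd.comp continuous_snd)
    have c5 : Continuous fun p : ℝ × E3 × E3 => FS E (p.1, p.2.1) :=
      cE.comp (continuous_fst.prodMk (continuous_fst.comp continuous_snd))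
    exact (c1.mul (c3.mul cf)).add (c2.mul (cf.mul (c4.inner c5)))
  have iG : Integrable G (m6 T) := by
    rw [m6_eq]
    have h1 : IntegrableOn G (Icc 0 T ×ˢ
        (Metric.closedBall (0 : E3) R ×ˢ Metric.closedBall (0 : E3) R)) :=
      cG.continuousOn.integrableOn_compact (isCompact_Icc.prod (isCompact_KR R))
    have h2 : IntegrableOn G (Icc 0 T ×ˢ univ) := by
      refine IntegrableOn.of_forall_sdiff_eq_zero h1
        (measurableSet_Icc.prod MeasurableSet.univ) fun p hp => ?_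
      have h3 : fS f p = 0 := by
        by_contra hne
        have h4 := hR p ⟨by linarith [hp.1.1.1], hp.1.1.2⟩ hne
        exact hp.2 ⟨hp.1.1, by simpa using h4.1, by simpa using h4.2⟩
      simp only [hG, h3, mul_zero, zero_mul, add_zero]
    exact h2.mono_set (prod_mono Ioo_subset_Icc_self (subset_refl _))
  have key : ∀ t ∈ Ioo 0 T, ∫ z : E3 × E3, G (t, z)
      = tha1 T k ν t * kin (ff f) t
        + tha T k ν t * ∫ z : E3 × E3, ff f t z.1 z.2 * ⟪u z.2, FF E t z.1⟫ := by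
    intro t ht
    have ht' : t ∈ Ico 0 (T + 1) := ⟨ht.1.le, by linarith [ht.2]⟩
    have i1 : Integrable fun z : E3 × E3 => q z.2 * ff f t z.1 z.2 :=
      ((continuous_q.comp continuous_snd).mul
        (hs.f_slice ht').continuous).integrable_of_hasCompactSupport
        (HasCompactSupport.mul_left (hs.hasCompactSupport ht'))
    have i2 : Integrable fun z : E3 × E3 => ff f t z.1 z.2 * ⟪u z.2, FF E t z.1⟫ := by
      refine Continuous.integrable_of_hasCompactSupport ?_
        (HasCompactSupport.mul_right (hs.hasCompactSupport ht'))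
      exact (hs.f_slice ht').continuous.mul ((continuous_u.comp continuous_snd).inner
        ((hs.E_slice ht').continuous.comp continuous_fst))
    unfold kin
    rw [← integral_const_mul, ← integral_const_mul,
      ← integral_add (i1.const_mul _) (i2.const_mul _)]
    rfl
  have iG' : Integrable (fun t => ∫ z : E3 × E3, G (t, z)) (mt T) := by
    have h1 : Integrable G ((mt T).prod volume) := iG
    exact h1.integral_prod_left
  have h1 : ∫ p, G p ∂(m6 T) = ∫ t in Ioo 0 T, ∫ z : E3 × E3, G (t, z) := by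
    have h2 : Integrable G ((mt T).prod volume) := iG
    exact integral_prod _ h2
  rw [h1, ← integral_Ioc_eq_integral_Ioo, ← intervalIntegral.integral_of_le hT.le]
  have hcont : ContinuousOn (fun t => tha T k ν t * kin (ff f) t) (Icc 0 T) :=
    contDiff_tha.continuous.continuousOn.mul (hs.continuousOn_kin ⟨hT.le, by linarith⟩)
  have hder : ∀ t ∈ Ioo 0 T, HasDerivAt (fun t => tha T k ν t * kin (ff f) t)
      (∫ z : E3 × E3, G (t, z)) t := by
    intro t ht
    have h2 := (hasDerivAt_tha (T := T) (k := k) (ν := ν) (t := t) (by linarith [ht.1])).mul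
      (hs.hasDerivAt_kin (t := t) ⟨ht.1, by linarith [ht.2]⟩)
    rw [key t ht]
    exact h2
  have hint : IntervalIntegrable (fun t => ∫ z : E3 × E3, G (t, z)) volume 0 T := by
    rw [intervalIntegrable_iff_integrableOn_Ioo_of_le hT.le]
    exact iG'
  rw [intervalIntegral.integral_eq_sub_of_hasDerivAt_of_le hT.le hcont hder hint,
    tha_eq_zero le_rfl, zero_mul, zero_sub]
  rfl

/-- **The facts on the strong solution.** -/
theorem exists_SW (h : RVM.IsEternalSolution f E B)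
    (hc : ∀ T : ℝ, ∃ M : ℝ, ∀ t x, |t| ≤ T → RVM.len (E t x) ≤ M) {T : ℝ} (hT : 0 < T) :
    ∃ Q c L : ℝ, SW T Q c L (fun p => f p.1 (coo p.2.1) (coo p.2.2))
      (fun p => coo.symm (E p.1 (coo p.2))) (fun p => coo.symm (B p.1 (coo p.2))) := by
  have := isAddHaar_prod
  obtain ⟨R, hR0, hR⟩ := exists_R h T
  obtain ⟨L, hL0, hL⟩ := exists_L h hR (Q := 1 + R) (by linarith)
  obtain ⟨M, hM⟩ := hc T
  have hs := isClassicalSolution_ff (h.classical (T + 1))
  have hIco : ∀ {t : ℝ}, t ∈ Icc 0 T → t ∈ Ico 0 (T + 1) := fun ht => ⟨ht.1, by linarith [ht.2]⟩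
  have hIoo : ∀ {t : ℝ}, t ∈ Ioo 0 T → t ∈ Ioo 0 (T + 1) := fun ht => ⟨ht.1, by linarith [ht.2]⟩
  have hfields : ∀ t ∈ Icc 0 T,
      Integrable fun x : E3 => ‖FS E (t, x)‖ ^ 2 + ‖FS B (t, x)‖ ^ 2 := fun t ht =>
    (integrable_norm_sq (hs.E_memLp t (hIco ht))).add (integrable_norm_sq (hs.B_memLp t (hIco ht)))
  refine ⟨1 + R, max M 0, L, ?_⟩
  exact
    { T_pos := hT
      Q_nonneg := by linarith
      c_nonneg := le_max_right _ _
      L_nonneg := hL0
      f_c1 := fS_c1 h
      E_c1 := FS_c1 h.E_c1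
      B_c1 := FS_c1 h.B_c1
      f_nonneg := fun p => h.f_nonneg _ _ _
      supp := ⟨R, hR⟩
      supp_Q := fun p hp hne => by
        have h1 := hR p ⟨by linarith [hp.1], hp.2⟩ hne
        exact (q_le p.2.2).trans (by linarith [h1.2])
      E_le := fun p hp => by
        show ‖coo.symm (E p.1 (coo p.2))‖ ≤ max M 0
        rw [norm_symm]
        refine (hM p.1 (coo p.2) ?_).trans (le_max_left _ _)
        rw [abs_of_nonneg hp.1]
        exact hp.2
      D_le := hL
      vlasov := fun p hp => vlasov_fS h hp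
      ampere := fun p hp => hs.ampere_fderiv (hIoo hp) p.2
      faraday := fun p hp => hs.faraday_fderiv (hIoo hp) p.2
      casimir := fun t ht => casimir_smooth hs (Φ := fun y => y ^ 2) (by fun_prop) (by norm_num)
        (hIco ht)
      fields := hfields
      energy := fun t ht => by
        have h0 : (0 : ℝ) ∈ Ico 0 (T + 1) := ⟨le_rfl, by linarith⟩
        have e1 := RVM.H706.totalEnergy_ff (h.classical (T + 1)) (hIco ht)
        have e2 := RVM.H706.totalEnergy_ff (h.classical (T + 1)) h0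
        have e3 := RVM.H706.totalEnergy_eq h t 0
        rw [e1, e2, integral_div, integral_div] at e3
        have e4 : kin (ff f) t + (∫ x, (‖FF E t x‖ ^ 2 + ‖FF B t x‖ ^ 2)) / 2
            = kin (ff f) 0 + (∫ x, (‖FF E 0 x‖ ^ 2 + ‖FF B 0 x‖ ^ 2)) / 2 := by
          rw [add_comm, e3, add_comm]
        exact e4
      work := fun T' hT' k ν => work_fS h hT'.1 k ν }

end Vale.Agent.P107.H429
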